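/-
S0170 team project, work package A1 (helper44): computable monotone bounds for all derivatives
of the smooth step `stp = Real.smoothTransition`.

Analysis: `Crest/Agent/Helper44/GlueBound.lean` and `Crest/Agent/Helper44/StepBound.lean`
(`|iteratedDeriv k Real.smoothTransition x| ≤ 8 * 144 ^ k * (k !) ^ 2`).
-/
import Crest.Agent.Helper21.BoxFlow.Defs
import Crest.Agent.Helper44.StepBound

set_option autoImplicit false

namespace Crest.Agent.Helper44

open Crest.Agent.Helper21

/-- The bound `8 * 144 ^ k * (k !) ^ 2`, written as a primitive recursion. -/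
def stpB : ℕ → ℕ := Nat.rec 8 (fun n b => b * (144 * ((n + 1) * (n + 1))))

theorem stpB_zero : stpB 0 = 8 := rfl

theorem stpB_succ (n : ℕ) : stpB (n + 1) = stpB n * (144 * ((n + 1) * (n + 1))) := rfl

theorem stpB_eq (k : ℕ) : stpB k = 8 * 144 ^ k * (k.factorial) ^ 2 := by
  induction k with
  | zero => simp [stpB_zero]
  | succ n ih =>
    rw [stpB_succ, ih, Nat.factorial_succ]
    ring

theorem stpB_primrec : Primrec stpB := by
  unfold stpB
  refine Primrec.nat_rec₁ 8 ?_
  have h1 : Primrec₂ (fun (n : ℕ) (b : ℕ) => b * (144 * ((n + 1) * (n + 1)))) := by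
    have hn : Primrec₂ (fun (n : ℕ) (_ : ℕ) => n + 1) :=
      (Primrec.succ.comp Primrec.fst).to₂
    have hsq : Primrec₂ (fun (n : ℕ) (_ : ℕ) => (n + 1) * (n + 1)) :=
      Primrec.nat_mul.comp₂ hn hn
    have hc : Primrec₂ (fun (_ : ℕ) (_ : ℕ) => (144 : ℕ)) := (Primrec.const 144).to₂
    have h144 : Primrec₂ (fun (n : ℕ) (_ : ℕ) => 144 * ((n + 1) * (n + 1))) :=
      Primrec.nat_mul.comp₂ hc hsq
    exact Primrec.nat_mul.comp₂ Primrec₂.right h144
  exact h1

theorem stpB_monotone : Monotone stpB := by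
  refine monotone_nat_of_le_succ fun n => ?_
  rw [stpB_succ]
  exact Nat.le_mul_of_pos_right _ (by positivity)

theorem stp_eq : stp = Real.smoothTransition := rfl

/-- Explicit all-order derivative bound for the smooth step. -/
theorem abs_iteratedDeriv_stp_le (k : ℕ) (x : ℝ) :
    |iteratedDeriv k stp x| ≤ 8 * 144 ^ k * (k.factorial : ℝ) ^ 2 := by
  rw [stp_eq]
  exact abs_iteratedDeriv_smoothTransition_le k x

/-- WP-A1 (statement identical to `Spec.stp_iteratedDeriv_bound`). -/
theorem stp_iteratedDeriv_bound : ∃ B : ℕ → ℕ, Computable B ∧ Monotone B ∧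
    ∀ (k : ℕ) (x : ℝ), |iteratedDeriv k stp x| ≤ (B k : ℝ) := by
  refine ⟨stpB, stpB_primrec.to_comp, stpB_monotone, fun k x => ?_⟩
  refine (abs_iteratedDeriv_stp_le k x).trans (le_of_eq ?_)
  rw [stpB_eq]
  push_cast
  ring

end Crest.Agent.Helper44
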