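/-
S0170 team project (helper44): explicit one-dimensional Gevrey-2 bounds
`|g^(k)(x)| ≤ A * a^k * (k!)^2` for the building blocks of the move field:
`stp`, `plat`, `timeProfile`, affine reparametrisations, products, and multiplication by `x`
for functions vanishing outside a bounded set.
-/
import Crest.Agent.Helper21.BoxFlow.Defs
import Crest.Agent.Helper44.BoxFlow.A1

set_option autoImplicit false
open scoped ContDiff

namespace Crest.Agent.Helper44

open Crest.Agent.Helper21

/-- Gevrey-2 class with explicit constants: `g` is smooth and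
`|g^(k)(x)| ≤ A * a^k * (k!)^2` for all `k`, `x`. -/
structure Gev (g : ℝ → ℝ) (A a : ℝ) : Prop where
  smooth : ContDiff ℝ ∞ g
  hA : 0 ≤ A
  ha : 0 ≤ a
  bound : ∀ (k : ℕ) (x : ℝ), |iteratedDeriv k g x| ≤ A * a ^ k * (k.factorial : ℝ) ^ 2

theorem gev_stp : Gev stp 8 144 where
  smooth := by
    rw [stp_eq]
    exact Real.smoothTransition.contDiff
  hA := by norm_num
  ha := by norm_num
  bound := abs_iteratedDeriv_stp_le

theorem Gev.mono {g : ℝ → ℝ} {A a A' a' : ℝ} (h : Gev g A a) (hA : A ≤ A') (ha : a ≤ a') :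
    Gev g A' a' where
  smooth := h.smooth
  hA := h.hA.trans hA
  ha := h.ha.trans ha
  bound := fun k x => by
    refine (h.bound k x).trans ?_
    have h1 : a ^ k ≤ a' ^ k := pow_le_pow_left₀ h.ha ha k
    have h2 : A * a ^ k ≤ A' * a' ^ k :=
      mul_le_mul hA h1 (pow_nonneg h.ha k) (h.hA.trans hA)
    exact mul_le_mul_of_nonneg_right h2 (by positivity)

theorem iteratedDeriv_comp_affine {g : ℝ → ℝ} (hg : ContDiff ℝ ∞ g) (c d : ℝ) (k : ℕ) (x : ℝ) :
    iteratedDeriv k (fun x => g (c * x + d)) x = c ^ k * iteratedDeriv k g (c * x + d) := by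
  have h1 : ContDiff ℝ k (fun y => g (y + d)) :=
    (hg.comp (contDiff_id.add contDiff_const)).of_le (by exact_mod_cast le_top)
  have h2 := iteratedDeriv_comp_const_mul h1 c
  have h3 := iteratedDeriv_comp_add_const k g d
  have h4 := congrFun h2 x
  rw [h3] at h4
  exact h4

theorem Gev.comp_affine {g : ℝ → ℝ} {A a : ℝ} (h : Gev g A a) (c d : ℝ) :
    Gev (fun x => g (c * x + d)) A (|c| * a) where
  smooth := h.smooth.comp ((contDiff_const.mul contDiff_id).add contDiff_const)
  hA := h.hA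
  ha := mul_nonneg (abs_nonneg c) h.ha
  bound := fun k x => by
    rw [iteratedDeriv_comp_affine h.smooth, abs_mul, abs_pow, mul_pow]
    have h1 := h.bound k (c * x + d)
    have h2 : 0 ≤ |c| ^ k := pow_nonneg (abs_nonneg c) k
    calc |c| ^ k * |iteratedDeriv k g (c * x + d)|
        ≤ |c| ^ k * (A * a ^ k * (k.factorial : ℝ) ^ 2) := mul_le_mul_of_nonneg_left h1 h2
      _ = A * (|c| ^ k * a ^ k) * (k.factorial : ℝ) ^ 2 := by ring

theorem Gev.mul {f g : ℝ → ℝ} {A a B b : ℝ} (hf : Gev f A a) (hg : Gev g B b) :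
    Gev (fun x => f x * g x) (A * B) (a + b) where
  smooth := hf.smooth.mul hg.smooth
  hA := mul_nonneg hf.hA hg.hA
  ha := add_nonneg hf.ha hg.ha
  bound := fun k x => by
    have hfc : ContDiffAt ℝ k f x := (hf.smooth.of_le (by exact_mod_cast le_top)).contDiffAt
    have hgc : ContDiffAt ℝ k g x := (hg.smooth.of_le (by exact_mod_cast le_top)).contDiffAt
    exact leibniz_gevrey_bound hfc hgc hf.hA hf.ha hg.hA hg.ha
      (fun i _ => hf.bound i x) (fun i _ => hg.bound i x)

/-- Multiplication by `x` of a Gevrey function vanishing for `|x| > R`. -/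
theorem Gev.mul_id {f : ℝ → ℝ} {A a : ℝ} (hf : Gev f A a) (R : ℝ)
    (hR : ∀ x, R < |x| → f x = 0) :
    Gev (fun x => f x * x) (A * max R 1) (a + 1) where
  smooth := hf.smooth.mul contDiff_id
  hA := mul_nonneg hf.hA (le_trans zero_le_one (le_max_right R 1))
  ha := add_nonneg hf.ha zero_le_one
  bound := fun k x => by
    have hM : (0:ℝ) ≤ max R 1 := le_trans zero_le_one (le_max_right R 1)
    have hrhs : 0 ≤ A * max R 1 * (a + 1) ^ k * (k.factorial : ℝ) ^ 2 := by
      have := hf.hA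
      have := hf.ha
      positivity
    by_cases hx : |x| ≤ R
    · have hfc : ContDiffAt ℝ k f x := (hf.smooth.of_le (by exact_mod_cast le_top)).contDiffAt
      have hgc : ContDiffAt ℝ k (id : ℝ → ℝ) x := contDiff_id.contDiffAt
      have key := leibniz_gevrey_bound (g := (id : ℝ → ℝ)) (B := max R 1) (b := 1) hfc hgc
        hf.hA hf.ha hM zero_le_one (fun i _ => hf.bound i x) (fun i _ => by
          rw [iteratedDeriv_id]
          rcases i with _ | _ | i
          · simp only [if_true, pow_zero, mul_one, Nat.factorial_zero, Nat.cast_one, one_pow]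
            exact hx.trans (le_max_left R 1)
          · simp
          · rw [if_neg (by omega), if_neg (by omega), abs_zero]
            positivity)
      exact key
    · rw [not_le] at hx
      have hev : (fun x => f x * x) =ᶠ[nhds x] fun _ => (0:ℝ) := by
        have hopen : IsOpen {y : ℝ | R < |y|} := isOpen_lt continuous_const continuous_abs
        filter_upwards [hopen.mem_nhds hx] with y hy
        rw [hR y hy, zero_mul]
      rw [hev.iteratedDeriv_eq k, iteratedDeriv_const]
      split_ifs <;> simpa using hrhs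

theorem Gev.mul_id_zero {f : ℝ → ℝ} {R : ℝ} (hR : ∀ x, R < |x| → f x = 0) :
    ∀ x, R < |x| → f x * x = 0 := fun x hx => by rw [hR x hx, zero_mul]

/-- Uniform form of the bound for all orders `k ≤ L`. -/
theorem Gev.le_unif {g : ℝ → ℝ} {A a : ℝ} (h : Gev g A a) {k L : ℕ} (hk : k ≤ L) (x : ℝ) :
    |iteratedDeriv k g x| ≤ A * (max a 1) ^ L * (L.factorial : ℝ) ^ 2 := by
  refine (h.bound k x).trans ?_
  have h1 : a ^ k ≤ (max a 1) ^ k := pow_le_pow_left₀ h.ha (le_max_left a 1) k
  have h2 : (max a 1) ^ k ≤ (max a 1) ^ L := pow_le_pow_right₀ (le_max_right a 1) hk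
  have h3 : (k.factorial : ℝ) ≤ (L.factorial : ℝ) := by
    exact_mod_cast Nat.factorial_le hk
  have h4 : (k.factorial : ℝ) ^ 2 ≤ (L.factorial : ℝ) ^ 2 :=
    pow_le_pow_left₀ (by positivity) h3 2
  have h5 : A * a ^ k ≤ A * (max a 1) ^ L :=
    mul_le_mul_of_nonneg_left (h1.trans h2) h.hA
  exact mul_le_mul h5 h4 (by positivity) (mul_nonneg h.hA (by positivity))

/-! ### The plateau and the time profile -/

theorem plat_eq (lo hi m : ℚ) (hm : 0 < m) :
    plat lo hi m = fun x =>
      (fun x => stp ((1 / (m:ℝ)) * x + (-(((lo:ℝ) - m) / m)))) x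
        * (fun x => stp ((-(1 / (m:ℝ))) * x + (((hi:ℝ) + m) / m))) x := by
  have hm' : (m:ℝ) ≠ 0 := by exact_mod_cast hm.ne'
  funext x
  unfold plat
  congr 2 <;> field_simp <;> ring

theorem gev_plat (lo hi m : ℚ) (hm : 0 < m) : Gev (plat lo hi m) 64 (288 / m) := by
  have hm' : (0:ℝ) < m := by exact_mod_cast hm
  rw [plat_eq lo hi m hm]
  have h1 := gev_stp.comp_affine (1 / (m:ℝ)) (-(((lo:ℝ) - m) / m))
  have h2 := gev_stp.comp_affine (-(1 / (m:ℝ))) (((hi:ℝ) + m) / m)
  have h3 := h1.mul h2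
  refine h3.mono (by norm_num) (le_of_eq ?_)
  rw [abs_neg, abs_of_pos (by positivity : (0:ℝ) < 1 / m)]
  ring

theorem plat_eq_zero_of_lt_abs (lo hi m : ℚ) (hm : 0 < m) (x : ℝ)
    (hx : max |(lo:ℝ) - m| |(hi:ℝ) + m| < |x|) : plat lo hi m x = 0 := by
  have hm' : (0:ℝ) < m := by exact_mod_cast hm
  unfold plat
  by_cases h1 : x ≤ (lo:ℝ) - m
  · have : stp ((x - ((lo:ℝ) - m)) / m) = 0 := by
      rw [stp_eq]
      exact Real.smoothTransition.zero_of_nonpos (div_nonpos_of_nonpos_of_nonneg (by linarith) hm'.le)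
    rw [this, zero_mul]
  · by_cases h2 : (hi:ℝ) + m ≤ x
    · have : stp ((((hi:ℝ) + m) - x) / m) = 0 := by
        rw [stp_eq]
        exact Real.smoothTransition.zero_of_nonpos
          (div_nonpos_of_nonpos_of_nonneg (by linarith) hm'.le)
      rw [this, mul_zero]
    · exfalso
      rw [not_le] at h1 h2
      have : |x| ≤ max |(lo:ℝ) - m| |(hi:ℝ) + m| := abs_le_max_abs_abs h1.le h2.le
      linarith

/-- The support radius of `plat lo hi m`. -/
noncomputable def platR (lo hi m : ℚ) : ℝ := max |(lo:ℝ) - m| |(hi:ℝ) + m|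

/-- `x ↦ plat lo hi m x * x ^ n` for `n ≤ 2`, with explicit Gevrey constants. -/
theorem gev_plat_mul_pow (lo hi m : ℚ) (hm : 0 < m) (n : ℕ) :
    Gev (fun x => plat lo hi m x * x ^ n) (64 * (max (platR lo hi m) 1) ^ n) (288 / m + n) ∧
      ∀ x, platR lo hi m < |x| → plat lo hi m x * x ^ n = 0 := by
  induction n with
  | zero =>
    refine ⟨?_, fun x hx => ?_⟩
    · have h := gev_plat lo hi m hm
      simp only [pow_zero, mul_one, Nat.cast_zero, add_zero]
      exact h
    · rw [plat_eq_zero_of_lt_abs lo hi m hm x hx, zero_mul]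
  | succ n ih =>
    obtain ⟨h1, h2⟩ := ih
    refine ⟨?_, fun x hx => ?_⟩
    · have h3 := h1.mul_id (platR lo hi m) h2
      have heq : (fun x => plat lo hi m x * x ^ (n + 1)) = fun x => plat lo hi m x * x ^ n * x := by
        funext x; ring
      rw [heq]
      refine h3.mono (le_of_eq (by ring)) (le_of_eq (by push_cast; ring))
    · rw [plat_eq_zero_of_lt_abs lo hi m hm x hx, zero_mul]

theorem timeProfile_eq (t₀ t₁ : ℚ) (ht : t₀ < t₁) :
    timeProfile t₀ t₁ = fun t =>
      stp ((1 / ((t₁:ℝ) - t₀)) * t + (-((t₀:ℝ) / ((t₁:ℝ) - t₀)))) := by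
  have h : (t₁:ℝ) - t₀ ≠ 0 := by
    have : (t₀:ℝ) < t₁ := by exact_mod_cast ht
    linarith
  funext t
  unfold timeProfile
  congr 1
  field_simp
  ring

theorem gev_timeProfile (t₀ t₁ : ℚ) (ht : t₀ < t₁) :
    Gev (timeProfile t₀ t₁) 8 (144 / ((t₁:ℝ) - t₀)) := by
  have h : (0:ℝ) < (t₁:ℝ) - t₀ := by
    have : (t₀:ℝ) < t₁ := by exact_mod_cast ht
    linarith
  rw [timeProfile_eq t₀ t₁ ht]
  have h1 := gev_stp.comp_affine (1 / ((t₁:ℝ) - t₀)) (-((t₀:ℝ) / ((t₁:ℝ) - t₀)))
  refine h1.mono le_rfl (le_of_eq ?_)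
  rw [abs_of_pos (by positivity : (0:ℝ) < 1 / ((t₁:ℝ) - t₀))]
  ring

end Crest.Agent.Helper44
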