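/-
S0170 team project (helper44): computable bounds for all mixed derivatives of the potential field
`thetaField` (the `hbound` input of the finite-difference package A3 for package A5b).

Route: `theta` is a combination of three monomial terms, each a product of functions of the single
coordinates; `mixedDeriv_single_tensor` (helper21) turns a mixed derivative of such a term into a
product of one-dimensional iterated derivatives, which are bounded by the explicit Gevrey bounds of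
`Gev.lean`.
-/
import Crest.Agent.Helper21.BoxFlow.MixedDeriv
import Crest.Agent.Helper68.BoxFlow.ThetaDefs
import Crest.Agent.Helper44.BoxFlow.Gev

set_option autoImplicit false
open scoped ContDiff
open Crest.AnalysisR.BoxFlow

namespace Crest.Agent.Helper44

open Crest.Agent.Helper21 Crest.Agent.Helper68

/-! ### The primitive recursive bound -/

/-- `cumB K N M L = K * (N * M ^ L * (L !) ^ 2) ^ 4`, as a primitive recursion. -/
def cumB (K N M : ℕ) : ℕ → ℕ :=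
  Nat.rec (K * (N * N * (N * N)))
    (fun n b => b * ((M * ((n + 1) * (n + 1))) * (M * ((n + 1) * (n + 1)))
      * ((M * ((n + 1) * (n + 1))) * (M * ((n + 1) * (n + 1))))))

theorem cumB_zero (K N M : ℕ) : cumB K N M 0 = K * (N * N * (N * N)) := rfl

theorem cumB_succ (K N M n : ℕ) : cumB K N M (n + 1) =
    cumB K N M n * ((M * ((n + 1) * (n + 1))) * (M * ((n + 1) * (n + 1)))
      * ((M * ((n + 1) * (n + 1))) * (M * ((n + 1) * (n + 1))))) := rfl

theorem cumB_eq (K N M L : ℕ) : cumB K N M L = K * (N * M ^ L * (L.factorial) ^ 2) ^ 4 := by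
  induction L with
  | zero =>
    rw [cumB_zero]
    simp only [pow_zero, Nat.factorial_zero, one_pow, mul_one]
    ring
  | succ n ih =>
    rw [cumB_succ, ih, Nat.factorial_succ]
    ring

theorem cumB_primrec (K N M : ℕ) : Primrec (cumB K N M) := by
  unfold cumB
  refine Primrec.nat_rec₁ _ ?_
  have hn : Primrec₂ (fun (n : ℕ) (_ : ℕ) => n + 1) := (Primrec.succ.comp Primrec.fst).to₂
  have hsq : Primrec₂ (fun (n : ℕ) (_ : ℕ) => (n + 1) * (n + 1)) := Primrec.nat_mul.comp₂ hn hn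
  have hc : Primrec₂ (fun (_ : ℕ) (_ : ℕ) => M) := (Primrec.const M).to₂
  have h1 : Primrec₂ (fun (n : ℕ) (_ : ℕ) => M * ((n + 1) * (n + 1))) :=
    Primrec.nat_mul.comp₂ hc hsq
  have h2 : Primrec₂ (fun (n : ℕ) (_ : ℕ) =>
      (M * ((n + 1) * (n + 1))) * (M * ((n + 1) * (n + 1)))) := Primrec.nat_mul.comp₂ h1 h1
  have h4 : Primrec₂ (fun (n : ℕ) (_ : ℕ) =>
      (M * ((n + 1) * (n + 1))) * (M * ((n + 1) * (n + 1)))
        * ((M * ((n + 1) * (n + 1))) * (M * ((n + 1) * (n + 1))))) := Primrec.nat_mul.comp₂ h2 h2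
  exact Primrec.nat_mul.comp₂ Primrec₂.right h4

theorem cumB_computable (K N M : ℕ) :
    Computable (fun ds : List (Fin 4) => cumB K N M ds.length) :=
  ((cumB_primrec K N M).comp Primrec.list_length).to_comp

/-! ### Coordinates -/

theorem coord_zero (p : ℝ × Sp) : coord 0 p = p.1 := by
  unfold coord
  simp

theorem coord_succ (j : Fin 3) (p : ℝ × Sp) : coord j.succ p = p.2 j := by
  unfold coord
  rw [dif_neg (Fin.succ_ne_zero j), Fin.pred_succ]

theorem contDiff_single {θ : ℝ × Sp → ℝ} (hθ : ContDiff ℝ ∞ θ) (c : Fin 3) :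
    ContDiff ℝ ∞ (fun p => (Pi.single c (θ p) : Sp)) := by
  rw [contDiff_pi]
  intro i
  by_cases hi : i = c
  · subst hi; simpa using hθ
  · simpa [Pi.single_eq_of_ne hi] using (contDiff_const : ContDiff ℝ ∞ fun _ : ℝ × Sp => (0:ℝ))

/-! ### Monomial terms -/

section terms

variable (lo hi : Fin 3 → ℚ) (m t₀ t₁ : ℚ)

/-- The one-dimensional factors of a monomial term with exponent vector `n`. -/
noncomputable def tfac (n : Fin 3 → ℕ) : Fin 4 → ℝ → ℝ :=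
  Fin.cases (timeProfile t₀ t₁) (fun j x => plat (lo j) (hi j) m x * x ^ (n j))

/-- A monomial term: `timeProfile(t) * ∏ j, plat_j(x_j) * x_j ^ (n j)`. -/
noncomputable def tterm (n : Fin 3 → ℕ) (p : ℝ × Sp) : ℝ :=
  ∏ d : Fin 4, tfac lo hi m t₀ t₁ n d (coord d p)

theorem tterm_eq (n : Fin 3 → ℕ) (p : ℝ × Sp) :
    tterm lo hi m t₀ t₁ n p
      = timeProfile t₀ t₁ p.1 * ∏ j : Fin 3, (plat (lo j) (hi j) m (p.2 j) * (p.2 j) ^ (n j)) := by
  unfold tterm
  rw [Fin.prod_univ_succ]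
  simp only [coord_zero, coord_succ, tfac, Fin.cases_zero, Fin.cases_succ]

theorem tfac_gev (hm : 0 < m) (ht : t₀ < t₁) (n : Fin 3 → ℕ) :
    ∃ A a : ℝ, ∀ d, Gev (tfac lo hi m t₀ t₁ n d) A a := by
  have hex : ∀ d, ∃ A a : ℝ, Gev (tfac lo hi m t₀ t₁ n d) A a := by
    intro d
    refine Fin.cases ?_ (fun j => ?_) d
    · exact ⟨_, _, gev_timeProfile t₀ t₁ ht⟩
    · exact ⟨_, _, (gev_plat_mul_pow (lo j) (hi j) m hm (n j)).1⟩
  choose A a h using hex
  refine ⟨∑ d, A d, ∑ d, a d, fun d => (h d).mono ?_ ?_⟩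
  · exact Finset.single_le_sum (fun i _ => (h i).hA) (Finset.mem_univ d)
  · exact Finset.single_le_sum (fun i _ => (h i).ha) (Finset.mem_univ d)

/-- Bound for all mixed derivatives of one monomial term. -/
theorem tterm_bound (hm : 0 < m) (ht : t₀ < t₁) (n : Fin 3 → ℕ) (e : Fin 3) :
    ContDiff ℝ ∞ (fun p => (Pi.single e (tterm lo hi m t₀ t₁ n p) : Sp)) ∧
    ∃ N M : ℕ, ∀ (ds : List (Fin 4)) (p : ℝ × Sp) (j : Fin 3),
      |mixedDeriv ds (fun p => (Pi.single e (tterm lo hi m t₀ t₁ n p) : Sp)) p j|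
        ≤ ((N : ℝ) * (M : ℝ) ^ ds.length * (ds.length.factorial : ℝ) ^ 2) ^ 4 := by
  obtain ⟨A, a, h⟩ := tfac_gev lo hi m t₀ t₁ hm ht n
  have hsm : ∀ d, ContDiff ℝ ∞ (tfac lo hi m t₀ t₁ n d) := fun d => (h d).smooth
  refine ⟨contDiff_single (contDiff_prod fun d _ => (hsm d).comp (contDiff_coord d)) e, ?_⟩
  obtain ⟨N, hN⟩ := exists_nat_ge A
  obtain ⟨M, hM⟩ := exists_nat_ge (max a 1)
  have hA0 : 0 ≤ A := (h 0).hA
  have hmax : (0:ℝ) ≤ max a 1 := le_trans zero_le_one (le_max_right a 1)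
  refine ⟨N, M, fun ds p j => ?_⟩
  have key := mixedDeriv_single_tensor (tfac lo hi m t₀ t₁ n) hsm e ds p j
  have hT : (0:ℝ) ≤ ((N : ℝ) * (M : ℝ) ^ ds.length * (ds.length.factorial : ℝ) ^ 2) ^ 4 := by
    positivity
  have hunf : mixedDeriv ds (fun p => (Pi.single e (tterm lo hi m t₀ t₁ n p) : Sp)) p j
      = if j = e then ∏ d, iteratedDeriv (ds.count d) (tfac lo hi m t₀ t₁ n d) (coord d p)
        else 0 := key
  rw [hunf]
  split_ifs
  · rw [Finset.abs_prod]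
    have h1 : ∀ d ∈ (Finset.univ : Finset (Fin 4)),
        |iteratedDeriv (ds.count d) (tfac lo hi m t₀ t₁ n d) (coord d p)|
          ≤ (N : ℝ) * (M : ℝ) ^ ds.length * (ds.length.factorial : ℝ) ^ 2 := by
      intro d _
      refine ((h d).le_unif (List.count_le_length) (coord d p)).trans ?_
      have h2 : (max a 1) ^ ds.length ≤ (M : ℝ) ^ ds.length := pow_le_pow_left₀ hmax hM _
      have h3 : A * (max a 1) ^ ds.length ≤ (N : ℝ) * (M : ℝ) ^ ds.length :=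
        mul_le_mul hN h2 (pow_nonneg hmax _) (by positivity)
      exact mul_le_mul_of_nonneg_right h3 (by positivity)
    have h4 := Finset.prod_le_prod (s := (Finset.univ : Finset (Fin 4)))
      (fun d _ => abs_nonneg (iteratedDeriv (ds.count d) (tfac lo hi m t₀ t₁ n d) (coord d p))) h1
    refine h4.trans (le_of_eq ?_)
    rw [Finset.prod_const, Finset.card_univ, Fintype.card_fin]
  · rw [abs_zero]; exact hT

end terms

/-! ### Decomposition of `theta` -/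

/-- Exponent vectors of the three monomials of `potF`. -/
def nvec1 (a : Fin 3) : Fin 3 → ℕ := fun j => if j = a + 1 then 1 else 0
def nvec2 (a : Fin 3) : Fin 3 → ℕ := fun j => if j = a + 1 then 2 else 0
def nvec3 (a : Fin 3) : Fin 3 → ℕ := fun j => if j = a + 1 ∨ j = a + 2 then 1 else 0

theorem theta_decomp (a : Fin 3) (α : ℚ) (w lo hi : Fin 3 → ℚ) (m t₀ t₁ : ℚ) (p : ℝ × Sp) :
    theta a α w lo hi m t₀ t₁ p
      = (α : ℝ) * tterm lo hi m t₀ t₁ (nvec1 a) p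
        + (((w (a + 1) : ℝ) / 2) * tterm lo hi m t₀ t₁ (nvec2 a) p
          + (w (a + 2) : ℝ) * tterm lo hi m t₀ t₁ (nvec3 a) p) := by
  simp only [tterm_eq, theta, potF, Fin.prod_univ_three, nvec1, nvec2, nvec3]
  fin_cases a <;> simp <;> ring

theorem mixedDeriv_lincomb3 {F₁ F₂ F₃ : Field} (h₁ : ContDiff ℝ ∞ F₁) (h₂ : ContDiff ℝ ∞ F₂)
    (h₃ : ContDiff ℝ ∞ F₃) (c₁ c₂ c₃ : ℝ) (ds : List (Fin 4)) :
    mixedDeriv ds (fun p => c₁ • F₁ p + (c₂ • F₂ p + c₃ • F₃ p))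
      = fun p => c₁ • mixedDeriv ds F₁ p + (c₂ • mixedDeriv ds F₂ p + c₃ • mixedDeriv ds F₃ p) := by
  have e1 := mixedDeriv_const_smul h₁ c₁ ds
  have e2 := mixedDeriv_const_smul h₂ c₂ ds
  have e3 := mixedDeriv_const_smul h₃ c₃ ds
  have s1 : ContDiff ℝ ∞ (fun p => c₁ • F₁ p) := h₁.const_smul c₁
  have s2 : ContDiff ℝ ∞ (fun p => c₂ • F₂ p) := h₂.const_smul c₂
  have s3 : ContDiff ℝ ∞ (fun p => c₃ • F₃ p) := h₃.const_smul c₃
  have s23 : ContDiff ℝ ∞ (fun p => c₂ • F₂ p + c₃ • F₃ p) := s2.add s3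
  have e23 : mixedDeriv ds (fun p => c₂ • F₂ p + c₃ • F₃ p)
      = fun p => mixedDeriv ds (fun p => c₂ • F₂ p) p + mixedDeriv ds (fun p => c₃ • F₃ p) p :=
    mixedDeriv_add s2 s3 ds
  have e123 : mixedDeriv ds (fun p => c₁ • F₁ p + (c₂ • F₂ p + c₃ • F₃ p))
      = fun p => mixedDeriv ds (fun p => c₁ • F₁ p) p
          + mixedDeriv ds (fun p => c₂ • F₂ p + c₃ • F₃ p) p :=
    mixedDeriv_add s1 s23 ds
  rw [e123, e23, e1, e2, e3]

/-- Computable bounds for all mixed derivatives of `thetaField` (closed form of the `hbound`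
hypothesis of `effective_of_values_bounds`). -/
theorem thetaField_bound (e a : Fin 3) (α : ℚ) (w lo hi : Fin 3 → ℚ) (m t₀ t₁ : ℚ)
    (hm : 0 < m) (ht : t₀ < t₁) :
    ∃ bound : List (Fin 4) → ℕ, Computable bound ∧
      ∀ (ds : List (Fin 4)) (p : ℝ × (Fin 3 → ℝ)) (j : Fin 3),
        |mixedDeriv ds (thetaField e a α w lo hi m t₀ t₁) p j| ≤ (bound ds : ℝ) := by
  obtain ⟨hs1, N1, M1, hb1⟩ := tterm_bound lo hi m t₀ t₁ hm ht (nvec1 a) e
  obtain ⟨hs2, N2, M2, hb2⟩ := tterm_bound lo hi m t₀ t₁ hm ht (nvec2 a) e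
  obtain ⟨hs3, N3, M3, hb3⟩ := tterm_bound lo hi m t₀ t₁ hm ht (nvec3 a) e
  obtain ⟨K, hK⟩ := exists_nat_ge (|(α : ℝ)| + |(w (a + 1) : ℝ) / 2| + |(w (a + 2) : ℝ)|)
  refine ⟨fun ds => cumB K (N1 + N2 + N3) (M1 + M2 + M3) ds.length, cumB_computable _ _ _,
    fun ds p j => ?_⟩
  have hfun : thetaField e a α w lo hi m t₀ t₁ = fun p =>
      (α : ℝ) • (Pi.single e (tterm lo hi m t₀ t₁ (nvec1 a) p) : Sp)
        + (((w (a + 1) : ℝ) / 2) • (Pi.single e (tterm lo hi m t₀ t₁ (nvec2 a) p) : Sp)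
          + (w (a + 2) : ℝ) • (Pi.single e (tterm lo hi m t₀ t₁ (nvec3 a) p) : Sp)) := by
    funext p
    ext i
    simp only [thetaField, theta_decomp, Pi.add_apply, Pi.smul_apply, smul_eq_mul, Pi.single_apply]
    split_ifs <;> ring
  rw [hfun, mixedDeriv_lincomb3 hs1 hs2 hs3]
  simp only [Pi.add_apply, Pi.smul_apply, smul_eq_mul]
  set L := ds.length with hL
  have c1 := hb1 ds p j
  have c2 := hb2 ds p j
  have c3 := hb3 ds p j
  rw [← hL] at c1 c2 c3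
  set T : ℝ := (((N1 + N2 + N3 : ℕ) : ℝ) * ((M1 + M2 + M3 : ℕ) : ℝ) ^ L
    * (L.factorial : ℝ) ^ 2) ^ 4 with hT
  have hmono : ∀ (N M : ℕ), N ≤ N1 + N2 + N3 → M ≤ M1 + M2 + M3 →
      ((N : ℝ) * (M : ℝ) ^ L * (L.factorial : ℝ) ^ 2) ^ 4 ≤ T := by
    intro N M hN hM
    have hN' : (N : ℝ) ≤ ((N1 + N2 + N3 : ℕ) : ℝ) := by exact_mod_cast hN
    have hM' : (M : ℝ) ≤ ((M1 + M2 + M3 : ℕ) : ℝ) := by exact_mod_cast hM
    have h1 : (M : ℝ) ^ L ≤ ((M1 + M2 + M3 : ℕ) : ℝ) ^ L :=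
      pow_le_pow_left₀ (by positivity) hM' L
    have h2 : (N : ℝ) * (M : ℝ) ^ L ≤ ((N1 + N2 + N3 : ℕ) : ℝ) * ((M1 + M2 + M3 : ℕ) : ℝ) ^ L :=
      mul_le_mul hN' h1 (by positivity) (by positivity)
    have h3 : (N : ℝ) * (M : ℝ) ^ L * (L.factorial : ℝ) ^ 2
        ≤ ((N1 + N2 + N3 : ℕ) : ℝ) * ((M1 + M2 + M3 : ℕ) : ℝ) ^ L * (L.factorial : ℝ) ^ 2 :=
      mul_le_mul_of_nonneg_right h2 (by positivity)
    exact pow_le_pow_left₀ (by positivity) h3 4
  have d1 := c1.trans (hmono N1 M1 (by omega) (by omega))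
  have d2 := c2.trans (hmono N2 M2 (by omega) (by omega))
  have d3 := c3.trans (hmono N3 M3 (by omega) (by omega))
  have hT0 : 0 ≤ T := by rw [hT]; positivity
  generalize mixedDeriv ds (fun p => (Pi.single e
    (tterm lo hi m t₀ t₁ (nvec1 a) p) : Sp)) p j = X1 at d1 ⊢
  generalize mixedDeriv ds (fun p => (Pi.single e
    (tterm lo hi m t₀ t₁ (nvec2 a) p) : Sp)) p j = X2 at d2 ⊢
  generalize mixedDeriv ds (fun p => (Pi.single e
    (tterm lo hi m t₀ t₁ (nvec3 a) p) : Sp)) p j = X3 at d3 ⊢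
  have habs : |(α : ℝ) * X1 + ((w (a + 1) : ℝ) / 2 * X2 + (w (a + 2) : ℝ) * X3)|
      ≤ (|(α : ℝ)| + |(w (a + 1) : ℝ) / 2| + |(w (a + 2) : ℝ)|) * T := by
    have q0 := abs_add_le ((α : ℝ) * X1) ((w (a + 1) : ℝ) / 2 * X2 + (w (a + 2) : ℝ) * X3)
    have q23 := abs_add_le ((w (a + 1) : ℝ) / 2 * X2) ((w (a + 2) : ℝ) * X3)
    have a1 : |(α : ℝ) * X1| = |(α : ℝ)| * |X1| := abs_mul _ _
    have a2 : |(w (a + 1) : ℝ) / 2 * X2| = |(w (a + 1) : ℝ) / 2| * |X2| := abs_mul _ _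
    have a3 : |(w (a + 2) : ℝ) * X3| = |(w (a + 2) : ℝ)| * |X3| := abs_mul _ _
    have q1 := mul_le_mul_of_nonneg_left d1 (abs_nonneg (α : ℝ))
    have q2 := mul_le_mul_of_nonneg_left d2 (abs_nonneg ((w (a + 1) : ℝ) / 2))
    have q3 := mul_le_mul_of_nonneg_left d3 (abs_nonneg (w (a + 2) : ℝ))
    linarith
  refine habs.trans ?_
  have hfin : ((cumB K (N1 + N2 + N3) (M1 + M2 + M3) L : ℕ) : ℝ) = (K : ℝ) * T := by
    rw [cumB_eq, hT]
    push_cast
    ring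
  rw [hfin]
  exact mul_le_mul_of_nonneg_right hK hT0

end Crest.Agent.Helper44
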